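import Vale.Agent.P136.H222.Defs

open MeasureTheory Filter Topology
open scoped ContDiff InnerProductSpace

namespace Vale.Agent.P136.Energy

open Vale.Agent.P136.Elasticity

/-- `r` is the least elastic energy `∫_Ω λ (div u)² + 2 μ |e(u)|²` among all displacement fields
`u ∈ H¹(Ω; ℝ³)` with the boundary value of `f`; in particular it is attained. -/
def LeastEnergy (Ω : Set E3) (lam mu : E3 → ℝ) (f : H1 Ω) (r : ℝ) : Prop :=
  IsLeast {s | ∃ u : H1 Ω, SameTrace u f ∧ s = form Ω lam mu u.der u.der} r

/-- For every boundary displacement, the least elastic energy of the second pair of moduli is `c`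
times that of the first pair. -/
def ProportionalEnergies (Ω : Set E3) (c : ℝ) (lam₁ mu₁ lam₂ mu₂ : E3 → ℝ) : Prop :=
  ∀ (f : H1 Ω) (r : ℝ), LeastEnergy Ω lam₁ mu₁ f r → LeastEnergy Ω lam₂ mu₂ f (c * r)

end Vale.Agent.P136.Energy
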