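import Vale.Agent.P136.H413.Defs
import Vale.Agent.P136.H222.Final

set_option linter.all false

/-! The displacement-to-traction map is determined by the least energies. -/

open MeasureTheory Filter Topology
open scoped ContDiff InnerProductSpace

namespace Vale.Agent.P136.BD.Rough

open Vale.Agent.P136.Exist.Rough (SC)

variable {Ω : Set E3} {lam mu lam₁ mu₁ lam₂ mu₂ : E3 → ℝ}

/-- sum of two elements of `H¹` -/
noncomputable def addH1 (hb : Bornology.IsBounded Ω) (f g : H1 Ω) : H1 Ω where
  val := fun j x => f.val j x + g.val j x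
  der := fun i j x => f.der i j x + g.der i j x
  val_mem := fun j => (f.val_mem j).add (g.val_mem j)
  der_mem := fun i j => (f.der_mem i j).add (g.der_mem i j)
  weak := by
    intro i j φ hφ
    have m1 : MemLp φ 2 (volume.restrict Ω) := memLp_cont hb hφ.1.continuous
    have m2 : MemLp (pd i φ) 2 (volume.restrict Ω) :=
      memLp_cont hb (pd_contDiff_infty hφ.1 i).continuous
    have e1 : ∫ x in Ω, (f.val j x + g.val j x) * pd i φ x =
        (∫ x in Ω, f.val j x * pd i φ x) + ∫ x in Ω, g.val j x * pd i φ x := by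
      have i1 : Integrable (fun x => f.val j x * pd i φ x) (volume.restrict Ω) :=
        (f.val_mem j).integrable_mul m2
      have i2 : Integrable (fun x => g.val j x * pd i φ x) (volume.restrict Ω) :=
        (g.val_mem j).integrable_mul m2
      rw [← integral_add i1 i2]
      congr 1; funext x; ring
    have e2 : ∫ x in Ω, (f.der i j x + g.der i j x) * φ x =
        (∫ x in Ω, f.der i j x * φ x) + ∫ x in Ω, g.der i j x * φ x := by
      have i1 : Integrable (fun x => f.der i j x * φ x) (volume.restrict Ω) :=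
        (f.der_mem i j).integrable_mul m1
      have i2 : Integrable (fun x => g.der i j x * φ x) (volume.restrict Ω) :=
        (g.der_mem i j).integrable_mul m1
      rw [← integral_add i1 i2]
      congr 1; funext x; ring
    rw [e1, e2, f.weak i j φ hφ, g.weak i j φ hφ]
    ring

/-- squares of sums -/
lemma tend_add {a b : ℕ → E3 → ℝ} (ha : ∀ n, MemLp (a n) 2 (volume.restrict Ω))
    (hb : ∀ n, MemLp (b n) 2 (volume.restrict Ω))
    (h1 : Tendsto (fun n => ∫ x in Ω, (a n x) ^ 2) atTop (𝓝 0))
    (h2 : Tendsto (fun n => ∫ x in Ω, (b n x) ^ 2) atTop (𝓝 0)) :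
    Tendsto (fun n => ∫ x in Ω, (a n x + b n x) ^ 2) atTop (𝓝 0) := by
  have hlim : Tendsto (fun n => 2 * (∫ x in Ω, (a n x) ^ 2) + 2 * (∫ x in Ω, (b n x) ^ 2))
      atTop (𝓝 0) := by
    simpa using (h1.const_mul 2).add (h2.const_mul 2)
  refine squeeze_zero (fun n => integral_nonneg fun x => sq_nonneg _) (fun n => ?_) hlim
  rw [← integral_const_mul, ← integral_const_mul, ← integral_add
    ((sq_int' (ha n)).const_mul 2) ((sq_int' (hb n)).const_mul 2)]
  refine integral_mono_of_nonneg (ae_of_all _ fun x => sq_nonneg _)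
    (((sq_int' (ha n)).const_mul 2).add ((sq_int' (hb n)).const_mul 2))
    (ae_of_all _ fun x => ?_)
  show (a n x + b n x) ^ 2 ≤ 2 * (a n x) ^ 2 + 2 * (b n x) ^ 2
  linarith only [sq_nonneg (a n x - b n x)]

lemma test_add {φ ψ : E3 → ℝ} (h1 : IsTest Ω φ) (h2 : IsTest Ω ψ) :
    IsTest Ω (fun x => φ x + ψ x) := by
  have h3 : IsTest Ω (fun x => (0 : ℝ) - ψ x) := by
    refine Exist.IsTest.sub ⟨contDiff_const, HasCompactSupport.zero, ?_⟩ h2
    have : tsupport (fun _ : E3 => (0 : ℝ)) = ∅ := by
      rw [tsupport_eq_empty_iff]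
      rfl
    rw [this]
    exact Set.empty_subset _
  have h4 := Exist.IsTest.sub h1 h3
  have e : (fun x => φ x - (0 - ψ x)) = fun x => φ x + ψ x := by
    funext x
    ring
  rwa [e] at h4

lemma pd_add_test {φ ψ : E3 → ℝ} (h1 : IsTest Ω φ) (h2 : IsTest Ω ψ) (i : Fin 3) (x : E3) :
    pd i (fun x => φ x + ψ x) x = pd i φ x + pd i ψ x := by
  unfold pd
  rw [fderiv_fun_add (h1.1.differentiable (by simp) x) (h2.1.differentiable (by simp) x)]
  rfl

lemma sameTrace_add (hb : Bornology.IsBounded Ω) {u f v g : H1 Ω} (h1 : SameTrace u f)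
    (h2 : SameTrace v g) : SameTrace (addH1 hb u v) (addH1 hb f g) := by
  obtain ⟨φ, hφ, hφ1, hφ2⟩ := h1
  obtain ⟨ψ, hψ, hψ1, hψ2⟩ := h2
  refine ⟨fun n j x => φ n j x + ψ n j x, fun n j => test_add (hφ n j) (hψ n j), fun j => ?_,
    fun i j => ?_⟩
  · have := tend_add (Ω := Ω) (a := fun n x => u.val j x - f.val j x - φ n j x)
      (b := fun n x => v.val j x - g.val j x - ψ n j x)
      (fun n => ((u.val_mem j).sub (f.val_mem j)).sub (memLp_cont hb (hφ n j).1.continuous))
      (fun n => ((v.val_mem j).sub (g.val_mem j)).sub (memLp_cont hb (hψ n j).1.continuous))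
      (hφ1 j) (hψ1 j)
    refine this.congr fun n => ?_
    congr 1; funext x
    simp only [addH1]
    ring
  · have := tend_add (Ω := Ω) (a := fun n x => u.der i j x - f.der i j x - pd i (φ n j) x)
      (b := fun n x => v.der i j x - g.der i j x - pd i (ψ n j) x)
      (fun n => ((u.der_mem i j).sub (f.der_mem i j)).sub
        (memLp_cont hb (pd_contDiff_infty (hφ n j).1 i).continuous))
      (fun n => ((v.der_mem i j).sub (g.der_mem i j)).sub
        (memLp_cont hb (pd_contDiff_infty (hψ n j).1 i).continuous))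
      (hφ2 i j) (hψ2 i j)
    refine this.congr fun n => ?_
    congr 1; funext x
    simp only [addH1, pd_add_test (hφ n j) (hψ n j)]
    ring

lemma form_add_left (hm : MeasurableSet Ω) (hb : Bornology.IsBounded Ω)
    (hl : Continuous lam) (hmu : Continuous mu) {G H K : Fin 3 → Fin 3 → E3 → ℝ}
    (hG : MemG Ω G) (hH : MemG Ω H) (hK : MemG Ω K) :
    form Ω lam mu (fun i j x => H i j x + K i j x) G =
      form Ω lam mu H G + form Ω lam mu K G := by
  have h0 : MemG Ω (fun _ _ _ => (0 : ℝ)) := fun _ _ => MemLp.zero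
  have e0 : form Ω lam mu (fun _ _ _ => (0 : ℝ)) G = 0 := by
    unfold form
    simp
  have h1 := form_sub_left hm hb hl hmu hG h0 hK
  have h2 := form_sub_left hm hb hl hmu hG hH (h0.sub hK)
  have e : (fun i j x => H i j x + K i j x) = fun i j x => H i j x - (0 - K i j x) := by
    funext i j x
    ring
  rw [e, h2, h1, e0]
  ring

lemma form_add_right (hm : MeasurableSet Ω) (hb : Bornology.IsBounded Ω)
    (hl : Continuous lam) (hmu : Continuous mu) {G H K : Fin 3 → Fin 3 → E3 → ℝ}
    (hG : MemG Ω G) (hH : MemG Ω H) (hK : MemG Ω K) :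
    form Ω lam mu G (fun i j x => H i j x + K i j x) =
      form Ω lam mu G H + form Ω lam mu G K := by
  rw [form_symm, form_add_left hm hb hl hmu hG hH hK, form_symm Ω lam mu H G,
    form_symm Ω lam mu K G]

/-- the least energy, internal form -/
def Least (Ω : Set E3) (lam mu : E3 → ℝ) (f : H1 Ω) (r : ℝ) : Prop :=
  IsLeast {s | ∃ u : H1 Ω, SameTrace u f ∧ s = form Ω lam mu u.der u.der} r

/-- Dirichlet's principle -/
lemma least_of_sol (ho : IsOpen Ω) (hb : Bornology.IsBounded Ω) (h : SC Ω lam mu) {f u : H1 Ω}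
    (hu : SameTrace u f) (hs : WeakSol lam mu u) : Least Ω lam mu f (form Ω lam mu u.der u.der) := by
  have hm := ho.measurableSet
  have cl := h.lam_smooth.continuous
  have cm := h.mu_smooth.continuous
  obtain ⟨c, hc, hco⟩ := h.coer
  refine ⟨⟨u, hu, rfl⟩, ?_⟩
  rintro s ⟨w, hw, rfl⟩
  have mw : MemG Ω w.der := w.der_mem
  have mu' : MemG Ω u.der := u.der_mem
  have o1 : form Ω lam mu u.der u.der = form Ω lam mu u.der f.der :=
    form_trace hm hb cl cm mu' hs hu
  have o2 : form Ω lam mu u.der w.der = form Ω lam mu u.der f.der :=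
    form_trace hm hb cl cm mu' hs hw
  have hp : 0 ≤ form Ω lam mu (fun i j x => w.der i j x - u.der i j x)
      (fun i j x => w.der i j x - u.der i j x) := by
    refine (mul_nonneg hc.le ?_).trans (coer_diff hm hb cl cm hco hw hu)
    exact Finset.sum_nonneg fun i _ => Finset.sum_nonneg fun j _ =>
      integral_nonneg fun _ => sq_nonneg _
  rw [form_sub_right hm hb cl cm (mw.sub mu') mw mu', form_sub_left hm hb cl cm mw mw mu',
    form_sub_left hm hb cl cm mu' mw mu', form_symm Ω lam mu w.der u.der] at hp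
  linarith

lemma sol_add (ho : IsOpen Ω) (hb : Bornology.IsBounded Ω) (h : SC Ω lam mu) {u v : H1 Ω}
    (hu : WeakSol lam mu u) (hv : WeakSol lam mu v) : WeakSol lam mu (addH1 hb u v) := by
  intro φ hφ
  have := form_add_left ho.measurableSet hb h.lam_smooth.continuous h.mu_smooth.continuous
    (memG_test hb hφ) u.der_mem v.der_mem
  show form Ω lam mu (fun i j x => u.der i j x + v.der i j x) (fun i j => pd i (φ j)) = 0
  rw [this, hu φ hφ, hv φ hφ, add_zero]

/-- energy of a sum of solutions -/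
lemma energy_add (ho : IsOpen Ω) (hb : Bornology.IsBounded Ω) (h : SC Ω lam mu) {v g : H1 Ω}
    (u : H1 Ω) (hu : WeakSol lam mu u) (hv : SameTrace v g) :
    form Ω lam mu (addH1 hb u v).der (addH1 hb u v).der =
      form Ω lam mu u.der u.der + form Ω lam mu v.der v.der + 2 * form Ω lam mu u.der g.der := by
  have hm := ho.measurableSet
  have cl := h.lam_smooth.continuous
  have cm := h.mu_smooth.continuous
  have mu' : MemG Ω u.der := u.der_mem
  have mv : MemG Ω v.der := v.der_mem
  have ms : MemG Ω (addH1 hb u v).der := (addH1 hb u v).der_mem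
  have e1 : form Ω lam mu (addH1 hb u v).der (addH1 hb u v).der =
      form Ω lam mu u.der (addH1 hb u v).der + form Ω lam mu v.der (addH1 hb u v).der :=
    form_add_left hm hb cl cm ms mu' mv
  have e2 : form Ω lam mu u.der (addH1 hb u v).der =
      form Ω lam mu u.der u.der + form Ω lam mu u.der v.der := form_add_right hm hb cl cm mu' mu' mv
  have e3 : form Ω lam mu v.der (addH1 hb u v).der =
      form Ω lam mu v.der u.der + form Ω lam mu v.der v.der := form_add_right hm hb cl cm mv mu' mv
  have e4 : form Ω lam mu u.der v.der = form Ω lam mu u.der g.der :=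
    form_trace hm hb cl cm mu' hu hv
  rw [e1, e2, e3, form_symm Ω lam mu v.der u.der, e4]
  ring

/-- equal least energies: equal displacement-to-traction maps -/
theorem sameDN_of_least (ho : IsOpen Ω) (hb : Bornology.IsBounded Ω) (h1 : SC Ω lam₁ mu₁)
    (h2 : SC Ω lam₂ mu₂)
    (H : ∀ (f : H1 Ω) (r : ℝ), Least Ω lam₁ mu₁ f r → Least Ω lam₂ mu₂ f r) :
    SameDN Ω lam₁ mu₁ lam₂ mu₂ := by
  have key : ∀ (f u w : H1 Ω), SameTrace u f → WeakSol lam₁ mu₁ u → SameTrace w f →
      WeakSol lam₂ mu₂ w → form Ω lam₁ mu₁ u.der u.der = form Ω lam₂ mu₂ w.der w.der := by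
    intro f u w hu hu' hw hw'
    exact (H f _ (least_of_sol ho hb h1 hu hu')).unique (least_of_sol ho hb h2 hw hw')
  have key2 : ∀ (f g u w : H1 Ω), SameTrace u f → WeakSol lam₁ mu₁ u → SameTrace w f →
      WeakSol lam₂ mu₂ w → form Ω lam₁ mu₁ u.der g.der = form Ω lam₂ mu₂ w.der g.der := by
    intro f g u w hu hu' hw hw'
    obtain ⟨v, hv, hv'⟩ := Exist.Rough.exists_dirichlet ho hb h1 g
    obtain ⟨y, hy, hy'⟩ := Exist.Rough.exists_dirichlet ho hb h2 g
    have a1 := key f u w hu hu' hw hw'
    have a2 := key g v y hv hv' hy hy'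
    have a3 := key _ _ _ (sameTrace_add hb hu hv) (sol_add ho hb h1 hu' hv')
      (sameTrace_add hb hw hy) (sol_add ho hb h2 hw' hy')
    rw [energy_add ho hb h1 u hu' hv, energy_add ho hb h2 w hw' hy, a1, a2] at a3
    linarith
  intro f g r
  constructor
  · rintro ⟨u, hu, hu', rfl⟩
    obtain ⟨w, hw, hw'⟩ := Exist.Rough.exists_dirichlet ho hb h2 f
    exact ⟨w, hw, hw', key2 f g u w hu hu' hw hw'⟩
  · rintro ⟨w, hw, hw', rfl⟩
    obtain ⟨u, hu, hu'⟩ := Exist.Rough.exists_dirichlet ho hb h1 f
    exact ⟨u, hu, hu', (key2 f g u w hu hu' hw hw').symm⟩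

/-- the least energy is the quadratic form of the displacement-to-traction map -/
theorem least_iff_DN (ho : IsOpen Ω) (hb : Bornology.IsBounded Ω) (h : SC Ω lam mu) (f : H1 Ω)
    (r : ℝ) : Least Ω lam mu f r ↔ DN Ω lam mu f f r := by
  obtain ⟨u, hu, hu'⟩ := Exist.Rough.exists_dirichlet ho hb h f
  have o : ∀ w : H1 Ω, SameTrace w f → WeakSol lam mu w →
      form Ω lam mu w.der w.der = form Ω lam mu w.der f.der := fun w hw hw' =>
    form_trace ho.measurableSet hb h.lam_smooth.continuous h.mu_smooth.continuous w.der_mem hw' hw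
  constructor
  · intro hr
    have := hr.unique (least_of_sol ho hb h hu hu')
    exact ⟨u, hu, hu', by rw [this, o u hu hu']⟩
  · rintro ⟨w, hw, hw', rfl⟩
    rw [← o w hw hw']
    exact least_of_sol ho hb h hw hw'

end Vale.Agent.P136.BD.Rough
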