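import Vale.Agent.P136.H413.Energy

set_option linter.all false

/-! Least energies, in the public definitions. -/

open MeasureTheory Filter Topology
open scoped ContDiff InnerProductSpace

namespace Vale.Agent.P136.Energy

open Vale.Agent.P136.Rough

variable {Ω : Set E3} {lam mu lam₁ mu₁ lam₂ mu₂ : E3 → ℝ}

lemma least_iff (f : Elasticity.H1 Ω) (r : ℝ) :
    LeastEnergy Ω lam mu f r ↔ BD.Rough.Least Ω lam mu (Bridge.toH1 f) r := by
  have e : {s | ∃ u : Elasticity.H1 Ω, Elasticity.SameTrace u f ∧ s = Elasticity.form Ω lam mu u.der u.der} =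
      {s | ∃ u : Vale.Agent.P136.H1 Ω, Vale.Agent.P136.SameTrace u (Bridge.toH1 f) ∧
        s = Vale.Agent.P136.form Ω lam mu u.der u.der} := by
    ext s
    constructor
    · rintro ⟨u, h1, h2⟩
      exact ⟨Bridge.toH1 u, (Bridge.sameTrace_iff u f).1 h1, h2⟩
    · rintro ⟨u, h1, h2⟩
      exact ⟨Bridge.ofH1 u, (Bridge.sameTrace_iff (Bridge.ofH1 u) f).2 h1, h2⟩
  unfold LeastEnergy BD.Rough.Least
  rw [e]

theorem least_DN (ho : IsOpen Ω) (hb : Bornology.IsBounded Ω) (h : Elasticity.Admissible Ω lam mu)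
    (f : Elasticity.H1 Ω) (r : ℝ) : LeastEnergy Ω lam mu f r ↔ Elasticity.DN Ω lam mu f f r := by
  obtain ⟨e₁, c₁⟩ := admissible_public ho hb h
  rw [least_iff, Bridge.DN_iff]
  exact BD.Rough.least_iff_DN ho hb (sc_of e₁ c₁) _ _

theorem exists_least (ho : IsOpen Ω) (hb : Bornology.IsBounded Ω) (h : Elasticity.Admissible Ω lam mu)
    (f : Elasticity.H1 Ω) : ∃ r, LeastEnergy Ω lam mu f r := by
  obtain ⟨e₁, c₁⟩ := admissible_public ho hb h
  obtain ⟨u, hu, hu'⟩ := Exist.Rough.exists_dirichlet ho hb (sc_of e₁ c₁) (Bridge.toH1 f)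
  exact ⟨_, (least_iff f _).2 (BD.Rough.least_of_sol ho hb (sc_of e₁ c₁) hu hu')⟩

theorem unique_of_energies (hΩ : TangentDomain Ω)
    (h1 : Elliptic Ω lam₁ mu₁) (h2 : Elliptic Ω lam₂ mu₂)
    (c1 : Coercive Ω lam₁ mu₁) (c2 : Coercive Ω lam₂ mu₂)
    (H : ∀ (f : Elasticity.H1 Ω) (r : ℝ), LeastEnergy Ω lam₁ mu₁ f r → LeastEnergy Ω lam₂ mu₂ f r) :
    ∀ x ∈ Ω, lam₁ x = lam₂ x ∧ mu₁ x = mu₂ x := by
  refine Rough.global' hΩ.isOpen hΩ.isBounded hΩ.dense (sc_of h1 c1) (sc_of h2 c2) ?_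
  refine BD.Rough.sameDN_of_least hΩ.isOpen hΩ.isBounded (sc_of h1 c1) (sc_of h2 c2) ?_
  intro f r hr
  exact (least_iff (Bridge.ofH1 f) r).1 (H (Bridge.ofH1 f) r ((least_iff (Bridge.ofH1 f) r).2 hr))

lemma form_smul (c : ℝ) (G H : Fin 3 → Fin 3 → E3 → ℝ) :
    Elasticity.form Ω (fun x => c * lam x) (fun x => c * mu x) G H = c * Elasticity.form Ω lam mu G H := by
  unfold Elasticity.form Elasticity.integ
  rw [← integral_const_mul]
  congr 1
  funext x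
  ring

lemma least_smul {c : ℝ} (hc : 0 < c) {f : Elasticity.H1 Ω} {s : ℝ}
    (h : LeastEnergy Ω (fun x => c * lam x) (fun x => c * mu x) f s) :
    LeastEnergy Ω lam mu f (c⁻¹ * s) := by
  obtain ⟨⟨u, hu, rfl⟩, h2⟩ := h
  refine ⟨⟨u, hu, ?_⟩, ?_⟩
  · rw [form_smul, inv_mul_cancel_left₀ hc.ne']
  · rintro t ⟨w, hw, rfl⟩
    have := h2 ⟨w, hw, rfl⟩
    rw [form_smul, form_smul] at this
    rw [form_smul, inv_mul_cancel_left₀ hc.ne']
    exact le_of_mul_le_mul_left this hc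

lemma admissible_smul {c : ℝ} (hc : 0 < c) (h : Elasticity.Admissible Ω lam mu) :
    Elasticity.Admissible Ω (fun x => c * lam x) (fun x => c * mu x) := by
  obtain ⟨h1, h2, h3⟩ := h
  refine ⟨contDiff_const.mul h1, contDiff_const.mul h2, fun x hx => ?_⟩
  obtain ⟨h4, h5⟩ := h3 x hx
  refine ⟨mul_pos hc h4, ?_⟩
  have := mul_pos hc h5
  linarith

theorem unique_proportional (hΩ : TangentDomain Ω) {c : ℝ} (hc : 0 < c)
    (h1 : Elasticity.Admissible Ω lam₁ mu₁) (h2 : Elasticity.Admissible Ω lam₂ mu₂)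
    (H : ProportionalEnergies Ω c lam₁ mu₁ lam₂ mu₂) :
    ∀ x ∈ Ω, lam₂ x = c * lam₁ x ∧ mu₂ x = c * mu₁ x := by
  obtain ⟨e₁, c₁⟩ := admissible_public hΩ.isOpen hΩ.isBounded (admissible_smul hc h1)
  obtain ⟨e₂, c₂⟩ := admissible_public hΩ.isOpen hΩ.isBounded h2
  intro x hx
  obtain ⟨a, b⟩ := unique_of_energies hΩ e₁ e₂ c₁ c₂ (fun f r hr => by
    have := H f _ (least_smul hc hr)
    rwa [mul_inv_cancel_left₀ hc.ne'] at this) x hx
  exact ⟨a.symm, b.symm⟩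

end Vale.Agent.P136.Energy
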